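import Vale.Agent.P030.H250.Chunk
import Vale.Agent.P030.H69.V1

/-!
# P030, route N: (n1), (n2), (n3) of `AR.stAR_G` for the frozen table v1 from the comparisons on the
33 literal pieces (helper250)

`lit` = the literal pieces (`p69_v1_pieces_532.txt`); `allLit` : these are all active pieces of the
geometry `H69.V1.GN`.
-/

open Set
open Vale.Agent.P030.H532 Vale.Agent.P030.H250

namespace Vale.Agent.P030.H250.V1G

/-- piece 0 -/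
def q0 : PP :=
  ⟨⟨⟨718735933440000, -654311424, -42840063, 26520039, 45634027520000, 67108864, -2720004, -2720004⟩, 0, 16777216⟩,
    [(4, 3), (5, 3), (6, 3), (7, 3)]⟩

/-- piece 1 -/
def q1 : PP :=
  ⟨⟨⟨18617223610368, 3036676096, -1109892, -917308, 17002030694400, 3355443200, -1013600, -1013600⟩, 0, 16777216⟩,
    [(4, 3), (5, 3), (6, 3)]⟩

/-- piece 2 -/
def q2 : PP :=
  ⟨⟨⟨3181262143488, 8271167488, -190125, -184875, 6274678784000, 16777216000, -375000, -375000⟩, 0, 16777216⟩,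
    [(4, 3), (5, 3), (6, 3), (7, 3), (7, 6)]⟩

/-- piece 3 -/
def q3 : PP :=
  ⟨⟨⟨7599441313792, -1929379840, -453005, 1211525, 70692477337600, 6710886400, -4214000, -4214000⟩, 0, 16777216⟩,
    [(4, 3), (5, 3), (6, 3), (7, 3)]⟩

/-- piece 4 -/
def q4 : PP :=
  ⟨⟨⟨172453003264, -84691386368, -7724, 3793, 116098334720, -240249733120, -5200, 10760⟩, 0, 16777216⟩,
    [(2, 1), (3, 1), (5, 1), (3, 2), (5, 2)]⟩

/-- piece 5 -/
def q5 : PP :=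
  ⟨⟨⟨42865786880, -21055406080, -497, -1236, 28856811520, -59726888960, -760, -2640⟩, 0, 16777216⟩,
    [(3, 2), (5, 2)]⟩

/-- piece 6 -/
def q6 : PP :=
  ⟨⟨⟨34527510528, -41792045056, -943, 1141, 16106127360, -104018739200, -440, 2840⟩, 0, 16777216⟩,
    [(3, 2), (5, 2), (5, 4), (6, 4), (7, 4), (7, 6)]⟩

/-- piece 7 -/
def q7 : PP :=
  ⟨⟨⟨18706595840, -22649241600, -2247, -4071, 8724152320, -56371445760, -3000, -8520⟩, 0, 16777216⟩,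
    [(3, 2), (5, 2)]⟩

/-- piece 8 -/
def q8 : PP :=
  ⟨⟨⟨-227952033792, -47580184576, 3308, 7884, -199313326080, -41607495680, 4960, 16800⟩, 0, 16777216⟩,
    [(3, 2), (5, 2)]⟩

/-- piece 9 -/
def q9 : PP :=
  ⟨⟨⟨11596411699200, -301989888, -646254, 15516, 16106127360000, 419430400, -897575, -21550⟩, 0, 16777216⟩,
    [(2, 1)]⟩

/-- piece 10 -/
def q10 : PP :=
  ⟨⟨⟨754068750336, 260013293568, -44964, 675702, 1047317708800, -361129574400, -62450, -938475⟩, 0, 16777216⟩,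
    [(2, 1), (3, 1), (5, 1)]⟩

/-- piece 11 -/
def q11 : PP :=
  ⟨⟨⟨47464438562816, -1728053248, -2829204, 2829204, 92163958374400, 3355443200, -5493600, -5493600⟩, 0, 16777216⟩,
    [(5, 4), (6, 4), (7, 4), (7, 6)]⟩

/-- piece 12 -/
def q12 : PP :=
  ⟨⟨⟨-18683107737600, 0, -63886, 0, 18253611008, 0, 8320, 0⟩, 0, 1073741824⟩,
    [(2, 0), (3, 1), (4, 1), (6, 1), (7, 1), (6, 5), (7, 5), (7, 6)]⟩

/-- piece 13 -/
def q13 : PP :=
  ⟨⟨⟨-87280177905664, 0, 20, 0, 8951785586688, 0, -2, 0⟩, 0, 1073741824⟩,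
    [(2, 0), (3, 1), (4, 1), (5, 1), (6, 1), (7, 1), (6, 5), (7, 5), (7, 6)]⟩

/-- piece 14 -/
def q14 : PP :=
  ⟨⟨⟨-87258703069184, 0, 81180, 0, 8949638103040, 0, -8168, 0⟩, 0, 1073741824⟩,
    [(2, 0), (3, 1), (5, 1), (6, 1), (7, 1), (6, 5), (7, 5), (7, 6)]⟩

/-- piece 15 -/
def q15 : PP :=
  ⟨⟨⟨-92341796864, 0, -50, 0, 179314884608, 0, 306, 0⟩, 0, 1073741824⟩,
    [(2, 0), (3, 1), (5, 1), (6, 1), (7, 1), (6, 5)]⟩

/-- piece 16 -/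
def q16 : PP :=
  ⟨⟨⟨-146028888064, 0, -4, 0, 507879882752, 0, 14, 0⟩, 0, 1073741824⟩,
    [(2, 0), (3, 1), (4, 1), (5, 1), (6, 1), (7, 1), (6, 5)]⟩

/-- piece 17 -/
def q17 : PP :=
  ⟨⟨⟨-150323855360, 0, 123, 0, 522912268288, 0, 34330, 0⟩, 0, 1073741824⟩,
    [(2, 0), (3, 1), (4, 1), (6, 5)]⟩

/-- piece 18 -/
def q18 : PP :=
  ⟨⟨⟨18253611008, 0, 6, 0, 37384469086208, 0, -34603, 0⟩, 0, 1073741824⟩,
    [(4, 2)]⟩

/-- piece 19 -/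
def q19 : PP :=
  ⟨⟨⟨24696061952, 0, 144, 0, 229780750336, 0, 152, 0⟩, 0, 1073741824⟩,
    [(4, 2), (6, 3)]⟩

/-- piece 20 -/
def q20 : PP :=
  ⟨⟨⟨179314884608, 0, -61, 0, 392989507584, 0, -151, 0⟩, 0, 1073741824⟩,
    [(3, 2), (4, 2), (5, 2), (6, 2), (6, 3)]⟩

/-- piece 21 -/
def q21 : PP :=
  ⟨⟨⟨113816633344, 0, 16597, 0, 230854492160, 0, 33322, 0⟩, 0, 1073741824⟩,
    [(3, 2), (5, 2), (6, 2)]⟩

/-- piece 22 -/
def q22 : PP :=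
  ⟨⟨⟨117037858816, 0, -23, 0, 230854492160, 0, -48, 0⟩, 0, 1073741824⟩,
    [(6, 3), (7, 3), (7, 6)]⟩

/-- piece 23 -/
def q23 : PP :=
  ⟨⟨⟨92341796864, 0, 34, 0, 179314884608, 0, 66, 0⟩, 0, 1073741824⟩,
    [(6, 3), (7, 3), (6, 4), (7, 6)]⟩

/-- piece 24 -/
def q24 : PP :=
  ⟨⟨⟨128849018880, 0, 42, 0, 250181844992, 0, -54, 0⟩, 0, 1073741824⟩,
    [(6, 3), (6, 4)]⟩

/-- piece 25 -/
def q25 : PP :=
  ⟨⟨⟨173946175488, 0, 32986, 0, 192199786496, 0, 33230, 0⟩, 0, 1073741824⟩,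
    [(6, 4)]⟩

/-- piece 26 -/
def q26 : PP :=
  ⟨⟨⟨36152887214080, 0, -33474, 0, 35872640598016, 0, -33230, 0⟩, 0, 1073741824⟩,
    [(3, 2), (6, 5)]⟩

/-- piece 27 -/
def q27 : PP :=
  ⟨⟨⟨210453397504, 0, -5, 0, 192199786496, 0, -12, 0⟩, 0, 1073741824⟩,
    [(3, 2), (4, 2), (5, 2), (6, 2), (6, 5)]⟩

/-- piece 28 -/
def q28 : PP :=
  ⟨⟨⟨205084688384, 0, 17226, 0, 179314884608, 0, -150, 0⟩, 0, 1073741824⟩,
    [(4, 2), (6, 5)]⟩

/-- piece 29 -/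
def q29 : PP :=
  ⟨⟨⟨115428688920576, 2130706432, -6880215, -6773545, 114533892882432, 2147483648, -6826880, -6826880⟩, 0, 16777216⟩,
    [(3, 2), (6, 4), (6, 5)]⟩

/-- piece 30 -/
def q30 : PP :=
  ⟨⟨⟨229962581803008, 4278190080, -13707095, -13600425, 458135571529728, 8589934592, -27307520, -27307520⟩, 0, 16777216⟩,
    [(3, 2), (5, 2), (6, 2)]⟩

/-- piece 31 -/
def q31 : PP :=
  ⟨⟨⟨894796038144, -16777216, -53335, 53335, 1832542286118912, 34359738368, -109230080, -109230080⟩, 0, 16777216⟩,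
    [(2, 0), (4, 0), (3, 1), (4, 1), (4, 2), (6, 5)]⟩

/-- piece 32 -/
def q32 : PP :=
  ⟨⟨⟨1833437082157056, -34342961152, -109283415, 109176745, 1789592076288, 33554432, -106670, -106670⟩, 0, 16777216⟩,
    [(2, 0), (4, 0), (3, 1), (4, 1), (6, 1), (7, 1), (4, 2), (6, 5), (7, 5), (7, 6)]⟩

/-- the pieces -/
def lit : List PP :=
  [q0, q1, q2, q3, q4, q5, q6, q7, q8, q9, q10, q11, q12, q13, q14, q15, q16,
    q17, q18, q19, q20, q21, q22, q23, q24, q25, q26, q27, q28, q29, q30, q31, q32]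

theorem allLit : H69.V1.GN.allLit lit = true := by decide +kernel

variable {W : ℕ → ℂ → ℝ} {W' : Fin 8 → ℂ → ℝ}

theorem eq_W (hW : ∀ b z, W' b z = W b.val z) : W' = fun b => W b.val := by
  funext b z
  exact hW b z

/-- **(n1)** -/
theorem n1 (hl : ∀ q ∈ lit, q.Ok W) (hW : ∀ b z, W' b z = W b.val z)
    {pR : Fin 10 → Fin 4 → Fin 8 → Fin 8 → Prop}
    (hR : ∀ k q b c, pR k q b c → H69.V1.GN.pR k q b c = true) :
    ∀ z ∈ AR.Dom H69.V1.geo.ρ, z.im = 0 → ∀ b c,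
      pR (AR.can (fun j => (H69.V1.geo.w j).fn) H69.V1.geo.TU z) (AR.FPat.qz z) b c →
        W' c z ≤ W' b z := by
  rw [eq_W hW]
  exact H69.V1.GN.n1 H69.V1.hw H69.V1.hρ H69.V1.ρ_pos H69.V1.hd H69.V1.ca H69.V1.c2 hR
    (GeoN.good_of_allLit allLit hl).2.1

/-- **(n2)** -/
theorem n2 (hl : ∀ q ∈ lit, q.Ok W) (hW : ∀ b z, W' b z = W b.val z)
    {pI : Fin 10 → Fin 10 → Fin 8 → Fin 8 → Prop}
    (hI : ∀ k k' b c, pI k k' b c → H69.V1.GN.pI k k' b c = true) :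
    AR.Edges (fun j => (H69.V1.geo.w j).fn)
      (fun k k' z => ∀ b c, (pI k k' b c ∨ pI k' k b c) → W' c z ≤ W' b z)
      {z | 0 ≤ z.im ∧ z ∈ AR.Dom H69.V1.geo.ρ} H69.V1.geo.TU := by
  rw [eq_W hW]
  exact H69.V1.GN.n2 H69.V1.hw H69.V1.hρ H69.V1.hd H69.V1.cu H69.V1.c1 hI
    (GeoN.good_of_allLit allLit hl).1

/-- **(n3)** -/
theorem n3 (hl : ∀ q ∈ lit, q.Ok W) (hW : ∀ b z, W' b z = W b.val z)
    {pC : Fin 4 → Fin 8 → Fin 8 → Prop}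
    (hC : ∀ c b b', pC c b b' → H69.V1.GN.pC c b b' = true) :
    ∀ c z, ‖z - AR.cen c‖ = H69.V1.geo.ρ c → 0 ≤ z.im →
      AR.can (fun j => (H69.V1.geo.w j).fn) H69.V1.geo.TU z = H69.V1.kc c ∧
        ∀ b b', pC c b b' → W' b' z ≤ W' b z := by
  rw [eq_W hW]
  exact H69.V1.GN.n3 H69.V1.hw H69.V1.hρ H69.V1.hd H69.V1.cc H69.V1.c3 hC
    (GeoN.good_of_allLit allLit hl).2.2

end Vale.Agent.P030.H250.V1G
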